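import Vale.Agent.P254s.Main

/-!
# P254: bodies with the symmetries of the cube, in every dimension
-/

namespace Vale.Agent.Results.P254.SymmetricAllDimensions

open Vale.Agent.P254

theorem result (n : ℕ) (hn : 2 ≤ n) (K : Set (Fin n → ℝ)) (hconv : Convex ℝ K)
    (hcomp : IsCompact K) (hint : (interior K).Nonempty)
    (hflip : ∀ x ∈ K, ∀ i, Function.update x i (-x i) ∈ K)
    (hperm : ∀ σ : Equiv.Perm (Fin n), ∀ x ∈ K, (fun i => x (σ i)) ∈ K) :
    isoConst K < isoConst (simplex n) := by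
  obtain ⟨m, rfl⟩ : ∃ m, n = m + 1 := ⟨n - 1, by omega⟩
  exact Vale.Agent.P254s.isoConst_lt_all (by omega) ⟨hconv, hcomp, hint, hflip, hperm⟩

end Vale.Agent.Results.P254.SymmetricAllDimensions
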