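import Vale.Agent.P254t.Main

/-!
# P254: unconditional 2-convex bodies in every dimension
-/

namespace Vale.Agent.Results.P254.TwoConvexUnconditional

open Vale.Agent.P254

theorem result (n : ℕ) (hn : 2 ≤ n) (K : Set (Fin n → ℝ)) (hconv : Convex ℝ K)
    (hcomp : IsCompact K) (hint : (interior K).Nonempty)
    (hflip : ∀ x ∈ K, ∀ i, Function.update x i (-x i) ∈ K)
    (hsq : Convex ℝ ((fun (x : Fin n → ℝ) i => x i ^ 2) '' K)) :
    isoConst K < isoConst (simplex n) := by
  obtain ⟨m, rfl⟩ : ∃ m, n = m + 1 := ⟨n - 1, by omega⟩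
  exact Vale.Agent.P254t.isoConst_lt (by omega) ⟨hconv, hcomp, hint, hflip⟩ hsq

end Vale.Agent.Results.P254.TwoConvexUnconditional
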