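import Vale.Agent.P254u.Main

/-!
# P254: unconditional bodies in dimension three
-/

namespace Vale.Agent.Results.P254.UnconditionalThree

open Vale.Agent.P254

theorem result (K : Set (Fin 3 → ℝ)) (hconv : Convex ℝ K) (hcomp : IsCompact K)
    (hint : (interior K).Nonempty)
    (hflip : ∀ x ∈ K, ∀ i, Function.update x i (-x i) ∈ K) :
    isoConst K < isoConst (simplex 3) :=
  Vale.Agent.P254u.isoConst_lt hconv hcomp hint hflip

end Vale.Agent.Results.P254.UnconditionalThree
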